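import Vale.Agent.P366Q.Neck0
import Vale.Agent.P366Y.Asq

/-!
# P366Q: the expansion of the solution at infinity
-/

open MeasureTheory Metric Filter Topology Set
open scoped ContDiff ENNReal
open Vale.Agent.P366 Vale.Agent.P366.Stmt Vale.Agent.P366Z Vale.Agent.P366Y

noncomputable section

namespace Vale.Agent.P366M.Y

variable {n : ℕ} {M : Type} [Mfe n M]

/-- the expansion of a quotient -/
theorem asy_div (hn : 3 ≤ n) {U u : M → ℝ} {b β : ℝ} (sU : Smooth U) (su : Smooth u)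
    (U0 : ∀ x, 1 / 2 ≤ U x) (hU : Asy U 1 b) (hv : Asy (fun x => U x * u x) 1 β) :
    Asy u 1 (β - b) := by
  refine asy_of_asyE fun j => (asyE_xfj (c := 1)).2 (P366Y.asy_div hn (sU.xfj j 1) (su.xfj j 1)
    (fun y => ?_) (asyE_xfj.1 (hU.asyE j)) (asy_congr (R := R0 M + 1 / 2) (fun y h => ?_)
      (hv.asyE j)))
  · exact (convex_Ici (1 / 2 : ℝ)) (U0 _) (show (1 / 2 : ℝ) ≤ 1 by norm_num) (xc0_nonneg y)
      (sub_nonneg.2 (xc0_le_one y)) (by ring)
  · rw [xfj_eq h, xfj_eq h]; rfl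

/-- `U u` is harmonic far away -/
theorem lap_mul_zero {X : Dat n M} (hX : X.Ok) {u : M → ℝ} (hu : Smooth u) {x : M}
    (hx : X.ρ < ‖px x‖) (h : lap X.g u x = 0) : lap (eu n) (fun y => X.U y * u y) x = 0 := by
  have U0 : ∀ x, 0 < X.U x := fun x => by linarith [(hX.Ub x).1]
  rw [Dat.g, hX.met.lap_cf hX.dim U0] at h
  rw [← hX.flat.lap_eq hx, hX.met.lap_mul_wl (hX.smU.c2 x) (hu.c2 x) (U0 x).ne', hX.harm x hx.le,
    (mul_eq_zero.1 h).resolve_left (Real.rpow_pos_of_pos (U0 x) _).ne']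
  simp

/-- the expansions of `u` and of `U u` -/
theorem asq {X : Dat n M} (hX : X.Ok) {u : M → ℝ} (hu : Smooth u)
    (lim : Tendsto u (cocompact M) (𝓝 1)) {R : ℝ} (h : ∀ x, R ≤ ‖px x‖ → lap X.g u x = 0) :
    ∃ β, Asy u 1 β ∧ Asy (fun x => X.U x * u x) 1 (X.β₁ + β) := by
  have hn := hX.dim
  have s1 : Smooth fun x => X.U x * u x := CD.mul hX.smU hu
  have l1 : Tendsto (fun x => X.U x * u x) (cocompact M) (𝓝 1) := by
    simpa using (hX.asy.tendsto hn).mul lim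
  obtain ⟨R₁, h1⟩ := ev_cocompact.1 (l1.eventually (ball_mem_nhds 1 one_pos))
  obtain ⟨C, hC⟩ := newt n hn
  obtain ⟨β, hβ, -⟩ := hC M _ 1 (max (max R R₁) (X.ρ + 1)) 1 0
    (le_trans (by linarith [hX.RM, hX.Rρ]) (le_max_right _ _)) s1 (fun x hx => by
      simp only [max_le_iff] at hx
      rw [lap_mul_zero hX hu (by linarith [hx.2]) (h x hx.1.1), abs_zero, zero_mul]
      exact ⟨(show |X.U x * u x - 1| < 1 from h1 x hx.1.2).le, le_rfl⟩) l1
  exact ⟨β - X.β₁, asy_div hn hX.smU hu (fun x => by linarith [(hX.Ub x).1]) hX.asy hβ,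
    by rwa [add_sub_cancel]⟩

end Vale.Agent.P366M.Y
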