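import Vale.Agent.P366Q.Sk
import Vale.Agent.P366Y.Sk2

/-!
# P366Q: the statements about the data and the parameters; `PAR` is the one of `P366Y.Sk2`
-/

open MeasureTheory Metric Filter Topology Set
open scoped ContDiff ENNReal
open Vale.Agent.P366 Vale.Agent.P366.Stmt Vale.Agent.P366Z Vale.Agent.P366Y

noncomputable section

namespace Vale.Agent.P366M.Y

/-- admissible parameters -/
structure Adm {n : ℕ} {M : Type} [Mfe n M] (X : Dat n M) (CK C : ℝ) (P : Pa) : Prop where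
  ok : P.Ok
  fo : P.ForM X
  ck : P.CK = CK
  big : P.Big C

/-- a statement for all data and all well ordered parameters -/
def ForP (Q : ∀ (n : ℕ) (M : Type) [Mfe n M] (_ : Dat n M) (_ : Pa), Prop) : Prop :=
  ∀ (n : ℕ) (M : Type) [Mfe n M] (X : Dat n M) (CK : ℝ), X.Ok →
    ∃ C : ℝ, ∀ P, Adm X CK C P → Q n M X P

/-- **PSI**: the smoothed warping function -/
def PSI : Prop := ∀ (n : ℕ) (M : Type) [Mfe n M] (X : Dat n M) (Cm : ℝ), 1 ≤ X.R → ∃ A₀ : ℝ,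
  ∀ P : Pa, P.Ok → ∀ δ ∈ Ioc (0 : ℝ) (1 / 2), ∀ S, Mol Cm δ S → ∀ u, Continuous u →
    Ps X P (A₀ / δ) (psi X P S u) ∧ (∀ x, P.φ (u x) ≤ psi X P S u x) ∧
    (∀ x, ∀ h ≥ (0 : ℝ), ‖px x‖ ≤ X.R + 4 → (∀ y ∈ ball x (2 * δ), u y ≤ u x + h) →
      psi X P S u x ≤ P.φ (u x) + 2 * P.lam * h) ∧
    ∀ u', ∀ d ≥ (0 : ℝ), Continuous u' → (∀ y, ‖px y‖ ≤ X.R + 7 → |u y - u' y| ≤ d) →
      ∀ x, |psi X P S u x - psi X P S u' x| ≤ 2 * P.lam * d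

/-- **UFAR**: the expansion at infinity -/
def UFAR : Prop := ∀ (n : ℕ) (M : Type) [Mfe n M] (X : Dat n M), X.Ok → ∃ C : ℝ, ∀ u : M → ℝ,
  Smooth u → Tendsto u (cocompact M) (𝓝 1) → (∀ x, 0 ≤ u x) →
  (∀ x, X.ρ + 1 ≤ ‖px x‖ → lap X.g u x = 0) →
  ∃ β, Asy (fun x => X.U x * u x) 1 (X.β₁ + β) ∧ Asy u 1 β ∧ -C ≤ β

/-- **RED0**: the preparation of the data -/
def RED0 : Prop := ∀ (n : ℕ) (M : Type) [Mfe n M] (D : Exterior n M) (m : ℝ), 3 ≤ n → D.IsAF →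
  D.DEC → D.Trapped → D.IsEnergy m → ∀ η > (0 : ℝ), ∃ ρ : ℝ, ∀ δ > (0 : ℝ),
    ∃ X : Dat n M, X.Ok ∧ X.ρ = ρ ∧ X.Of D m η δ

/-- **EN**: the inequality with the energy -/
def EN : Prop := ∀ (n : ℕ) (M : Type) [Mfe n M] (D : Exterior n M) (m : ℝ), 3 ≤ n → D.IsAF →
  D.DEC → D.Trapped → D.IsEnergy m →
    D.Amin ≠ ⊤ ∧ (D.Amin.toReal / omega n) ^ (((n : ℝ) - 2) / (n - 1)) / 2 ≤ m

end Vale.Agent.P366M.Y
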