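import Vale.Agent.P366Q.Defs
import Vale.Agent.P366Y.Sk

/-!
# P366Q: the statements of the elliptic tools on a manifold

The local tools `SFP DGS DGO CAC1 CAC2 LOC OSC` of `P366Y.Sk` are used in the charts.
-/

open MeasureTheory Metric Filter Topology Set
open scoped ContDiff ENNReal
open Vale.Agent.P366 Vale.Agent.P366.Stmt Vale.Agent.P366Z Vale.Agent.P366Y

noncomputable section

namespace Vale.Agent.P366M.Y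

/-- the Hölder seminorm of a covariant tensor is at most `B` -/
def HsT {n : ℕ} {M : Type} [Mf n M] (α B : ℝ) (T : Fld n M) : Prop :=
  ∀ x, ∀ y ∈ ball (pt x) 1, ∀ z ∈ ball (pt x) 1,
    ‖rep (ch x) T y - rep (ch x) T z‖ ≤ B * ‖y - z‖ ^ α

/-- **INTP**: interpolation -/
def INTP : Prop := ∀ (n : ℕ) (M : Type) [Mfe n M] (α : ℝ), α ∈ Ioo (0 : ℝ) 1 → ∃ C > (0 : ℝ),
  ∀ (v : M → ℝ) (A B r : ℝ), 0 < r → r ≤ 1 → 0 ≤ A → 0 ≤ B → CD 2 v → (∃ K, ∀ x, ‖D1 v x‖ ≤ K) →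
  HsT α B (D2 v) → ((∀ x y, dist x y ≤ r → |v x - v y| ≤ A) →
    ∀ x, ‖D1 v x‖ ≤ C * (A / r + B * r ^ (1 + α)) ∧ ‖D2 v x‖ ≤ C * (A / r ^ 2 + B * r ^ α)) ∧
  ((∀ x, ‖D1 v x‖ ≤ A) → ∀ x, ‖D2 v x‖ ≤ C * (A / r + B * r ^ α))

/-- **USCH**: the estimate of Schauder with uniform constants -/
def USCH : Prop := ∀ (n : ℕ) (M : Type) [Mfe n M] (α Λ : ℝ), α ∈ Ioo (0 : ℝ) 1 → ∃ C > (0 : ℝ),
  ∀ (a : Fld n M) (v : M → ℝ) (A B : ℝ), (∀ x, El Λ (a x)) → HoU α Λ a → CD 2 v →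
  (∃ K, HoT α K (D2 v)) → (∀ x, ‖D1 v x‖ ≤ A) → HoS α B (fun x => pr2 (a x) (D2 v x)) →
  HoT α (C * (A + B)) (D2 v)

/-- the linear operators: `a` is the identity outside the ball of radius `ρ`, `c = l` inside -/
structure Lin {n : ℕ} {M : Type} [Mfe n M] (Λ₀ ρ l : ℝ) (a : Fld n M) (c : M → ℝ) : Prop where
  el : ∃ Λ, ∀ x, El Λ (a x)
  bd : ∀ x i j, |a x i j| ≤ Λ₀
  id : ∀ x, ρ ≤ ‖px x‖ → a x = eu n x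
  cb : ∀ x, 0 ≤ c x ∧ c x ≤ l
  cl : ∀ x, ‖px x‖ ≤ ρ → c x = l

/-- **MPN**: the maximum principle -/
def MPN : Prop := ∀ (n : ℕ) (M : Type) [Mfe n M] (Λ₀ ρ : ℝ), 3 ≤ n → R0 M + 1 ≤ ρ →
  ∃ l₀ : ℝ, ∃ C > (0 : ℝ), ∀ l ≥ l₀, ∀ (a : Fld n M) (c v : M → ℝ) (H : ℝ), Lin Λ₀ ρ l a c →
    CD 2 v → Tendsto v (cocompact M) (𝓝 0) → 0 ≤ H →
    (∀ x, -H ≤ pr2 (a x) (D2 v x) - c x * v x) →
    (∀ x, ρ + 1 ≤ ‖px x‖ → 0 ≤ pr2 (a x) (D2 v x) - c x * v x) → ∀ x, v x ≤ C * H * bu x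

/-- **LINH**: linear equations with Hölder coefficients -/
def LINH : Prop := ∀ (n : ℕ) (M : Type) [Mfe n M] (Λ₀ ρ : ℝ), 3 ≤ n → R0 M + 1 ≤ ρ →
  ∃ l₀ : ℝ, ∀ l ≥ l₀, ∀ α ∈ Ioo (0 : ℝ) 1, ∀ (a : Fld n M) (c h : M → ℝ), Lin Λ₀ ρ l a c →
    (∃ A, HoU α A a ∧ HoS α A c ∧ HoS α A h) → (∀ x, ρ + 1 ≤ ‖px x‖ → h x = 0) →
    ∃ v, (∃ A, C2H α A v) ∧ Tendsto v (cocompact M) (𝓝 0) ∧
      ∀ x, pr2 (a x) (D2 v x) - c x * v x = h x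

/-- a quasilinear nonlocal problem -/
structure Ql {n : ℕ} {M : Type} [Mfe n M] (Λ₀ ρ l α : ℝ) (c : M → ℝ)
    (a : (M → ℝ × Vc n) → Fld n M) (b : (M → ℝ × Vc n) → M → ℝ) : Prop where
  hc : ∃ A, HoS α A c
  bd : ∀ N, ∃ Λ, ∀ j, HoJ α N j → Lin Λ₀ ρ l (a j) c ∧ (∀ x, El Λ (a j x)) ∧ HoU α Λ (a j) ∧
    HoS α Λ (b j) ∧ ∀ x, ρ + 1 ≤ ‖px x‖ → b j x = c x * (j x).1
  ct : ∀ N, ∀ e > (0 : ℝ), ∃ d > (0 : ℝ), ∀ j j', HoJ α N j → HoJ α N j' →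
    (∀ x, ‖j x - j' x‖ ≤ d) → ∀ x, ‖a j x - a j' x‖ ≤ e ∧ |b j x - b j' x| ≤ e
  loc : ∀ j j', (∃ N, HoJ α N j ∧ HoJ α N j') → (∀ x, ‖px x‖ ≤ ρ + 2 → j x = j' x) →
    ∀ x, ‖px x‖ ≤ ρ + 1 → a j x = a j' x ∧ b j x = b j' x
  ap : ∃ N, ∀ σ ∈ Icc (0 : ℝ) 1, ∀ v, (∃ A, C2H α A v) → Tendsto v (cocompact M) (𝓝 0) →
    (∀ x, pr2 (a (J1 v) x) (D2 v x) = σ * b (J1 v) x + (1 - σ) * c x * v x) → HoJ α N (J1 v)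

/-- **QE**: the principle of Leray and Schauder -/
def QE : Prop := ∀ (n : ℕ) (M : Type) [Mfe n M] (Λ₀ ρ : ℝ), 3 ≤ n → R0 M + 1 ≤ ρ →
  ∃ l₀ : ℝ, ∀ l ≥ l₀, ∀ α ∈ Ioo (0 : ℝ) 1, ∀ (c : M → ℝ) a b, Ql Λ₀ ρ l α c a b →
    ∃ v, (∃ A, C2H α A v) ∧ Tendsto v (cocompact M) (𝓝 0) ∧
      ∀ x, pr2 (a (J1 v) x) (D2 v x) = b (J1 v) x

/-- **REGQ**: smoothness -/
def REGQ : Prop := ∀ (n : ℕ) (M : Type) [Mfe n M] (α A : ℝ) (v : M → ℝ)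
  (a : M → ℝ × Vc n → Mx n) (b : M → ℝ × Vc n → ℝ), α ∈ Ioo (0 : ℝ) 1 → C2H α A v →
  (∀ x, ContDiff ℝ ∞ (jU (ch x) a)) → (∀ x, ContDiff ℝ ∞ (jS (ch x) b)) →
  (∀ x, ∃ Λ, El Λ (a x (J1 v x))) → (∀ x, pr2 (a x (J1 v x)) (D2 v x) = b x (J1 v x)) → Smooth v

/-- **NATS**: from Hölder continuity to the estimate of Schauder under natural growth -/
def NATS : Prop := ∀ (n : ℕ) (M : Type) [Mfe n M] (α Λ : ℝ), α ∈ Ioo (0 : ℝ) 1 → ∃ C : ℝ,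
  ∀ (a : Fld n M) (b : M → Vc n → ℝ) (v : M → ℝ), (∀ x, El Λ (a x)) → HoU α Λ a →
  (∃ A, C2H α A v) → HoS α Λ v → (∀ x q, |b x q| ≤ Λ * (1 + e2 q)) →
  (∀ x, ∀ y ∈ ball (pt x) 1, ∀ z ∈ ball (pt x) 1, ∀ q,
    |b ((ch x).symm y) (tC (ch x) y q) - b ((ch x).symm z) (tC (ch x) z q)| ≤
      Λ * (1 + e2 q) * ‖y - z‖ ^ α) →
  (∀ x q q', |b x q - b x q'| ≤ Λ * (1 + ‖q‖ + ‖q'‖) * ‖q - q'‖) →
  (∀ x, pr2 (a x) (D2 v x) = b x (D1 v x)) → C2H α C v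

/-- **L2B**: the energy controls the square on balls -/
def L2B : Prop := ∀ (n : ℕ) (M : Type) [Mfe n M] (r : ℝ), 3 ≤ n → ∃ C > (0 : ℝ),
  ∀ (u : M → ℝ) (e : ℝ), Smooth u → Tendsto u (cocompact M) (𝓝 1) → (∀ r', En u r' ≤ e) →
  ∫ x in bl M r, max (u x - 2) 0 ^ 2 ≤ C * e

/-- **MOL**: the smoothing operator exists -/
def MOL : Prop := ∀ (n : ℕ) (M : Type) [Mfe n M], ∃ C > (0 : ℝ), ∀ δ ∈ Ioc (0 : ℝ) 1,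
  ∃ S : (M → ℝ) → M → ℝ, Mol C δ S

/-- **GB**: the gradient bound; `A` is the principal part and `B` the right hand side along `f` -/
def GB : Prop := ∀ (n : ℕ) (M : Type) [Mfe n M] (C : ℝ), ∃ C' : ℝ, ∀ (N : ℝ) (f : M → ℝ)
  (A : Fld n M) (B : M → ℝ), 1 ≤ N → Smooth f → SmU A → Tendsto (D1 f) (cocompact M) (𝓝 0) →
  (∀ x, pr2 (A x) (D2 f x) = B x) →
  (∀ x, N ^ 2 ≤ ip bg f f x → (∀ i, ∑ j, D2 f x i j * gr bg f j x = 0) →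
    (∃ Λ, El Λ (A x)) ∧ ‖A x‖ ≤ C ∧
    (∀ ξ : Vc n, ∑ i, ξ i * gr bg f i x = 0 → e2 ξ ≤ C * ∑ i, ∑ j, A x i j * ξ i * ξ j) ∧
    (∀ i j, |∑ k, gr bg f k x * Stmt.pd k (fun y => repU (ch x) A y i j) (pt x)| ≤
      C * gn bg f x) ∧ C' * ip bg f f x ≤ ip bg f B x) → ∀ x, ip bg f f x ≤ N ^ 2

end Vale.Agent.P366M.Y
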