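import Vale.Agent.P366Y.Defs
import Vale.Agent.P366Q.G.Defs
import Vale.Agent.P366M.Ug

/-!
# P366Q: definitions for the reduction of the spacetime inequality to a neck, on a manifold
-/

open MeasureTheory Metric Filter Topology Set
open scoped ContDiff ENNReal
open Vale.Agent.P366 Vale.Agent.P366.Stmt Vale.Agent.P366Z Vale.Agent.P366Y

noncomputable section

namespace Vale.Agent.P366M.Y

variable {n : ℕ} {M : Type}

section L0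

variable [Mf n M]

/-- the first derivatives -/
def D1 (v : M → ℝ) (x : M) : Vc n := fun i => pd i v x

/-- the second derivatives: the Hessian of the background metric -/
def D2 (v : M → ℝ) : Fld n M := hess bg v

/-- the jet of order one -/
def J1 (v : M → ℝ) (x : M) : ℝ × Vc n := (v x, D1 v x)

/-- a covector field in the chart `e` -/
def rC (e : Ch n M) (w : M → Vc n) (y : E n) : Vc n := fun i => repC e (fun k x => w x k) i y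

/-- the covector at `e.symm y` whose components in the chart `e` are `p` -/
def tC (e : Ch n M) (y : E n) (p : Vc n) : Vc n := fun k => ∑ i, (J e y)⁻¹ i k * p i

/-- a function of the jets in the chart `e` -/
def jS (e : Ch n M) (b : M → ℝ × Vc n → ℝ) (w : E n × ℝ × Vc n) : ℝ :=
  b (e.symm w.1) (w.2.1, tC e w.1 w.2.2)

/-- a contravariant tensor which depends on the jets, in the chart `e` -/
def jU (e : Ch n M) (a : M → ℝ × Vc n → Mx n) (w : E n × ℝ × Vc n) : Mx n :=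
  repU e (fun x => a x (w.2.1, tC e w.1 w.2.2)) w.1

/-- Hölder functions; replaces `Ho` -/
def HoS {V : Type} [NormedAddCommGroup V] (α A : ℝ) (f : M → V) : Prop :=
  ∀ x, HoB α A (loc (ch x) f) (ball (pt x) 1)

/-- Hölder covector fields -/
def HoC (α A : ℝ) (w : M → Vc n) : Prop := ∀ x, HoB α A (rC (ch x) w) (ball (pt x) 1)

/-- Hölder covariant tensors -/
def HoT (α A : ℝ) (T : Fld n M) : Prop := ∀ x, HoB α A (rep (ch x) T) (ball (pt x) 1)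

/-- Hölder contravariant tensors -/
def HoU (α A : ℝ) (a : Fld n M) : Prop := ∀ x, HoB α A (repU (ch x) a) (ball (pt x) 1)

/-- Hölder jets -/
def HoJ (α A : ℝ) (j : M → ℝ × Vc n) : Prop :=
  HoS α A (fun x => (j x).1) ∧ HoC α A fun x => (j x).2

/-- the class `C^(2, α)` with the bound `A` -/
def C2H (α A : ℝ) (v : M → ℝ) : Prop :=
  CD 2 v ∧ HoS α A v ∧ HoC α A (D1 v) ∧ HoT α A (D2 v)

end L0

variable [Mfe n M]

/-- one on the ball of radius `r`, zero outside the ball of radius `r + 1` -/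
def rc (r : ℝ) (x : M) : ℝ := P366Y.rc r (px x)

/-- the bubble -/
def bu (x : M) : ℝ := P366Y.bu n (px x)

/-! ### the data -/

/-- the prepared data: the metric is `cf U g₀` -/
structure Dat (n : ℕ) (M : Type) [Mfe n M] where
  g₀ : Fld n M
  K : Fld n M
  F : M → ℝ
  U : M → ℝ
  ϖ : M → ℝ
  p : M → ℝ
  R : ℝ
  ρ : ℝ
  p₀ : ℝ
  s₀ : ℝ
  θ₀ : ℝ
  k₀ : ℝ
  β₁ : ℝ
  β₂ : ℝ

/-- the metric of the data -/
def Dat.g (X : Dat n M) : Fld n M := cf X.U X.g₀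

/-- the properties of the prepared data -/
structure Dat.Ok (X : Dat n M) : Prop where
  dim : 3 ≤ n
  met : Met X.g₀
  flat : Flat X.g₀ X.ρ
  R1 : 1 ≤ X.R
  RM : R0 M + 1 ≤ X.R
  Rρ : X.R + 10 ≤ X.ρ
  smU : Smooth X.U
  Ub : ∀ x, 3 / 4 ≤ X.U x ∧ X.U x ≤ 9 / 8
  harm : ∀ x, X.ρ ≤ ‖px x‖ → lap X.g₀ X.U x = 0
  asy : Asy X.U 1 X.β₁
  smK : SmT X.K
  syK : ∀ x i j, X.K x i j = X.K x j i
  K0 : ∀ x, X.R + 3 ≤ ‖px x‖ → X.K x = 0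
  smF : Smooth X.F
  far : ∀ x, X.R ≤ ‖px x‖ → X.s₀ < X.F x
  smp : Smooth X.p
  p0 : 0 < X.p₀
  pb : ∀ x, 0 ≤ X.p x ∧ X.p x ≤ X.p₀
  pin : ∀ x, X.F x ≤ X.s₀ → X.p x = 0
  pout : ∀ x, X.R ≤ ‖px x‖ → X.p x = X.p₀ ∧ n * normSq X.g X.K x ≤ (X.p₀ / 4) ^ 2
  dec : ∀ x, 0 ≤ X.F x → ‖px x‖ ≤ X.R + 2 → 2 * covNorm X.g (mom X.g X.K) x + 4 * gn X.g X.p x +
    min (tr X.g X.K x ^ 2) (4 * X.p x * |tr X.g X.K x|) < 2 * mu X.g X.K x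
  dec' : ∀ x, X.R + 2 ≤ ‖px x‖ → ‖px x‖ ≤ X.R + 8 → tr X.g X.K x ^ 2 < 2 * mu X.g X.K x
  sc : ∀ x, X.R + 8 ≤ ‖px x‖ → 0 ≤ cl X.g₀ X.U x ∧ 0 < cl X.g₀ X.U x / 2 + cl X.g₀ X.ϖ x
  cvx : ∀ x, X.R ≤ ‖px x‖ → ‖px x‖ ≤ X.R + 2 → ∀ ξ : Vc n,
    0 ≤ ∑ i, ∑ j, hess X.g (fun y => ‖px y‖ ^ 2) x i j * ξ i * ξ j
  s0 : 0 < X.s₀
  θ0 : 0 < X.θ₀ ∧ X.θ₀ ≤ 1 ∧ 1 ≤ X.k₀
  reg : ∀ x, |X.F x| ≤ X.s₀ → gn X.g X.F x ≠ 0
  trap : ∀ x, -(X.s₀ / 16) ≤ X.F x → X.F x ≤ X.s₀ → thetaPlus X.g X.K X.F x ≤ -X.θ₀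
  neg : ∀ x, X.F x ≤ -(X.s₀ / 16) → ∀ ξ : Vc n,
    ∑ i, ∑ j, X.K x i j * ξ i * ξ j ≤ -X.k₀ * ∑ i, ∑ j, X.g x i j * ξ i * ξ j
  hes : ∀ x, -(X.s₀ / 8) ≤ X.F x → X.F x ≤ -(X.s₀ / 16) →
    16 * n * normSq X.g (hess X.g X.F) x ≤ X.k₀ ^ 2 * ip X.g X.F X.F x
  smϖ : Smooth X.ϖ
  ϖb : ∀ x, 0 ≤ X.ϖ x ∧ X.ϖ x ≤ 1 / 8
  ϖ0 : ∀ x, ‖px x‖ ≤ X.R + 8 → X.ϖ x = 0
  ϖa : Asy X.ϖ 0 X.β₂
  ϖd : ∃ C, ∀ x, ‖fd (lap X.g₀ X.ϖ) x‖ ≤ C

/-- the relation of the prepared data with the exterior `D` -/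
structure Dat.Of (X : Dat n M) (D : Exterior n M) (m η δ : ℝ) : Prop where
  mass : 2 * (X.β₁ + X.β₂) ≤ m + η
  src : ∀ x, X.ρ ≤ ‖px x‖ → -(δ * ‖px x‖ ^ (-(n + 2) : ℝ)) ≤ lap X.g₀ X.ϖ x ∧ lap X.g₀ X.ϖ x ≤ 0
  deep : ∀ x, D.F x ≤ 0 → X.F x ≤ 0
  cmp : G.Cmp D η X.g₀ X.U

/-! ### the parameters -/

/-- `CK` bounds the tensor `K` -/
def _root_.Vale.Agent.P366Y.Pa.ForM (P : Pa) (X : Dat n M) : Prop :=
  P.p₁ ≤ X.p₀ ∧ ∀ x, n * normSq X.g X.K x ≤ P.CK ^ 2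

/-- the admissible smoothed warping functions: `ψ` is `A`-Lipschitz -/
structure Ps (X : Dat n M) (P : Pa) (A : ℝ) (ψ : M → ℝ) : Prop where
  sm : Smooth ψ
  bd : ∀ x, P.φ₀ ≤ ψ x ∧ ψ x ≤ 2
  two : ∀ x, X.R + 5 ≤ ‖px x‖ → ψ x = 2
  lip : ∀ x, ‖fd ψ x‖ ≤ A

/-! ### the equation for `f` -/

/-- the square of a covector -/
def sq (g : Fld n M) (x : M) (p : Vc n) : ℝ := ∑ i, ∑ j, up g i j x * p i * p j

/-- the vector of a covector -/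
def rs (g : Fld n M) (x : M) (p : Vc n) (i : Fin n) : ℝ := ∑ j, up g i j x * p j

/-- the geometric principal part -/
def ag (X : Dat n M) (P : Pa) (ψ : M → ℝ) (x : M) (p : Vc n) : Mx n := fun i j =>
  up X.g i j x - rc (X.R + 7) x * P.Gs (ψ x) (sq X.g x p) * rs X.g x p i * rs X.g x p j

/-- the capillary term -/
def cap (X : Dat n M) (P : Pa) (s : ℝ) (x : M) (z : ℝ) : ℝ :=
  P.T₁ z + (rc (X.R + 3) x * X.p x + (1 - rc (X.R + 3) x) * P.p₁) * Real.arctan (z / s)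

/-- the principal part in coordinates -/
def aJ (X : Dat n M) (P : Pa) (ψ : M → ℝ) (x : M) (p : Vc n) : Mx n := fun i j =>
  X.U x ^ (2 * bb n) * ag X P ψ x p i j

/-- the right hand side; `σ` is the parameter of the homotopy -/
def bJ (X : Dat n M) (P : Pa) (s l σ : ℝ) (ψ : M → ℝ) (x : M) (z : ℝ) (p : Vc n) : ℝ :=
  σ * rc (X.R + 7) x * X.U x ^ (2 * bb n) *
    (P.om (ψ x) (sq X.g x p) * (pr2 (ag X P ψ x p) (X.K x) + cap X P s x z) +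
      pr2 (ag X P ψ x p) fun i j => ∑ k, (chr X.g k i j x - chr bg k i j x) * p k) +
    (1 - σ * rc (X.R + 7) x) * l * z

/-- `f` solves the equation of the gauge -/
structure Jf (X : Dat n M) (P : Pa) (s l σ : ℝ) (ψ f : M → ℝ) : Prop where
  sm : Smooth f
  lim : Tendsto f (cocompact M) (𝓝 0)
  c2 : ∃ α ∈ Ioo (0 : ℝ) 1, ∃ A, C2H α A f
  eqn : ∀ x, pr2 (aJ X P ψ x (D1 f x)) (D2 f x) = bJ X P s l σ ψ x (f x) (D1 f x)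

/-- what the mass estimate uses about `f` -/
structure Jg (X : Dat n M) (P : Pa) (s N ε : ℝ) (ψ f : M → ℝ) : Prop where
  sm : Smooth f
  eqn : ∀ x, ‖px x‖ ≤ X.R + 7 → pr2 (ag X P ψ x (D1 f x)) (hess X.g f x) =
    P.om (ψ x) (ip X.g f f x) * (pr2 (ag X P ψ x (D1 f x)) (X.K x) + cap X P s x (f x))
  sup : ∀ x, |f x| ≤ 8 * P.F₀
  grad : ∀ x, ‖fd f x‖ ≤ N
  inn : ∀ x, X.F x ≤ 0 → 2 * P.F₀ ≤ f x
  out : ∀ x, X.R + 1 ≤ ‖px x‖ → |f x| ≤ s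
  far : ∀ x, X.R + 6 ≤ ‖px x‖ → ‖fd f x‖ ≤ ε

/-! ### the equation for `u` -/

/-- the metric `g + w² df²` -/
def gb (g : Fld n M) (w f : M → ℝ) : Fld n M := fun x i j =>
  g x i j + w x ^ 2 * pd i f x * pd j f x

/-- the warping function -/
def wp (X : Dat n M) (P : Pa) (u : M → ℝ) (x : M) : ℝ := rc (X.R + 6) x * P.φ (u x)

/-- the penalty of the floor -/
def flo (X : Dat n M) (P : Pa) (cY : ℝ) (ψ f : M → ℝ) (x : M) : ℝ :=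
  cY * (1 + ((1 - rc (X.R + 7) x * P.Gs (ψ x) (ip X.g f f x) * ip X.g f f x) *
    (1 + (rc (X.R + 6) x * P.φ₀) ^ 2 * ip X.g f f x))⁻¹)

/-- the prescribed curvature -/
def Lam (X : Dat n M) (P : Pa) (c : Cu) (ψ f : M → ℝ) (x : M) (z : ℝ) : ℝ :=
  rc (X.R + 7) x * c.σ₀ + (1 - rc (X.R + 7) x) * scal X.g x +
    rc X.ρ x * (P.βf z * flo X P c.cY ψ f x - c.A' * Real.smoothTransition (z - c.um)) -
    c.A * Real.smoothTransition (4 * f x ^ 2 / P.F₀ ^ 2 - 1) * (1 - P.βf z)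

/-- the energy on the ball of radius `r` -/
def En (u : M → ℝ) (r : ℝ) : ℝ := ∫ x in bl M r, ip bg u u x

/-- a smoothing operator at the scale `δ` that dominates -/
structure Mol (C δ : ℝ) (S : (M → ℝ) → M → ℝ) : Prop where
  sm : ∀ h, Continuous h → Smooth (S h)
  ge : ∀ h x, Continuous h → h x ≤ S h x
  cst : ∀ (c : ℝ) x, S (fun _ => c) x = c
  loc : ∀ h h' x (e : ℝ), Continuous h → Continuous h' → (∀ y ∈ ball x (2 * δ), h y ≤ h' y + e) →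
    S h x ≤ S h' x + e
  lip : ∀ h x (a b : ℝ), Continuous h → (∀ y, a ≤ h y ∧ h y ≤ b) →
    ‖fd (S h) x‖ ≤ C * (b - a) / δ

/-- the smoothed warping function of `u` -/
def psi (X : Dat n M) (P : Pa) (S : (M → ℝ) → M → ℝ) (u : M → ℝ) (x : M) : ℝ :=
  rc (X.R + 4) x * S (fun y => P.φ (u y)) x + (1 - rc (X.R + 4) x) * 2

/-- the output of the analysis -/
structure Sol (X : Dat n M) (σ₀ η ℓ : ℝ) (w f u : M → ℝ) (φ₀ F₀ β : ℝ) : Prop where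
  smw : Smooth w
  smf : Smooth f
  smu : Smooth u
  φ0 : 0 < φ₀ ∧ φ₀ ≤ 1 ∧ 4 ≤ F₀ ∧ ℓ ≤ φ₀ * F₀
  wlo : ∀ x, ‖px x‖ ≤ X.R + 6 → φ₀ ≤ w x
  w0 : ∀ x, X.R + 7 ≤ ‖px x‖ → w x = 0
  lo : ∀ x, 1 - 2 * η ≤ u x
  inn : ∀ x, X.F x ≤ 0 → 2 * F₀ ≤ f x
  out : ∀ x, X.R + 1 ≤ ‖px x‖ → |f x| ≤ 1
  pos : ∀ x, |f x| ≤ F₀ / 2 → rc (X.R + 7) x * σ₀ + (1 - rc (X.R + 7) x) * scal X.g x ≤
    scal (gb X.g w f) x - 4 * gam n * lap (gb X.g w f) u x / u x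
  harm : ∀ x, X.ρ + 1 ≤ ‖px x‖ → lap X.g u x = 0
  asy : Asy (fun x => X.U x * u x) 1 β
  mass : β ≤ X.β₁ + η

end Vale.Agent.P366M.Y
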