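import Vale.Agent.P366Y.Flo
import Vale.Agent.P366Q.J.Defs
import Vale.Agent.P366Q.C.Pt
import Vale.Agent.P366Q.D.Bk
import Vale.Agent.P366Q.D.Hb

/-!
# P366Q: the curvature at the floor
-/

open MeasureTheory Metric Filter Topology Set
open scoped ContDiff ENNReal
open Vale.Agent.P366 Vale.Agent.P366.Stmt Vale.Agent.P366Z Vale.Agent.P366Y
open Vale.Agent.P366Y.J (io Ga GA ga big_mono)
open Vale.Agent.P366Y.FlrH (lam_lo sum2_le num)

noncomputable section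

namespace Vale.Agent.P366M.Y

namespace FlrH

open Vale.Agent.P366M.Y.J

variable {n : ℕ} {M : Type} [Mfe n M] {g T : Fld n M} {f χ : M → ℝ} {x : M} {X : Dat n M} {P : Pa}

theorem b2_le (hg : Met g) (hT : ∀ i j, T x i j = T x j i) {N : ℝ} (N0 : 0 ≤ N)
    (hN : normSq g T x ≤ N ^ 2) (f : M → ℝ) : |C.b2 g T f f x| ≤ N * ip g f f x := by
  obtain ⟨-, -, -, o4, o5, -⟩ := C.orth n M g T f f x hg hT
  have t0 := hg.ip_nonneg f x
  refine abs_le_of_sq_le_sq (o5.trans ?_) (by positivity)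
  have a := mul_le_mul_of_nonneg_right (o4.trans (mul_le_mul_of_nonneg_right hN t0)) t0
  exact a.trans (le_of_eq (by ring))

theorem nsq_le {Λ H : ℝ} (hΛ : ∀ i j, |up g i j x| ≤ Λ) (hH : ∀ i j, |T x i j| ≤ H) (Λ0 : 0 ≤ Λ)
    (H0 : 0 ≤ H) : normSq g T x ≤ (n ^ 2 * Λ * H) ^ 2 := by
  refine (le_abs_self _).trans ((sum2_le fun i j => sum2_le (c := Λ * Λ * H * H) fun k l => ?_).trans
    (le_of_eq (by ring)))
  rw [abs_mul, abs_mul, abs_mul]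
  gcongr <;> first | exact hΛ _ _ | exact hH _ _

theorem tr_le {Λ H : ℝ} (hΛ : ∀ i j, |up g i j x| ≤ Λ) (hH : ∀ i j, |T x i j| ≤ H) (Λ0 : 0 ≤ Λ) :
    |tr g T x| ≤ n ^ 2 * (Λ * H) :=
  sum2_le fun i j => by rw [abs_mul]; exact mul_le_mul (hΛ i j) (hH i j) (abs_nonneg _) Λ0

theorem ip_le {Λ d : ℝ} (hΛ : ∀ i j, |up g i j x| ≤ Λ) (hd : ∀ i, |pd i f x| ≤ d) (Λ0 : 0 ≤ Λ)
    (d0 : 0 ≤ d) : ip g f f x ≤ n ^ 2 * (Λ * d * d) := by
  refine (le_abs_self _).trans (sum2_le fun i j => ?_)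
  rw [abs_mul, abs_mul]
  gcongr <;> first | exact hΛ _ _ | exact hd _

theorem pr2_am (g T : Fld n M) (f : M → ℝ) (x : M) (c : ℝ) :
    pr2 (am g x c (D1 f x)) (T x) = tr g T x - c * C.b2 g T f f x := by
  simp only [pr2, am, tr, C.b2, Finset.mul_sum, ← Finset.sum_sub_distrib]
  refine Finset.sum_congr rfl fun i _ => Finset.sum_congr rfl fun j _ => ?_
  change (up g i j x - c * gr g f i x * gr g f j x) * T x i j = _
  ring

theorem cap_le (hX : X.Ok) (hP : P.Ok) (hF : P.ForM X) (s : ℝ) {z : ℝ} (hz : |z| ≤ 8 * P.F₀) :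
    |cap X P s x z| ≤ 2 * P.CK + 2 * X.p₀ := by
  obtain ⟨r0, r1⟩ := rc_mem (X.R + 3) x
  obtain ⟨p0, p1⟩ := hX.pb x
  have q0 := hP.pos.2.2.2.2.2.2.1
  have q1 := hF.1
  have a1 : |Real.arctan (z / s)| ≤ 2 := abs_le.2
    ⟨by linarith [Real.neg_pi_div_two_lt_arctan (z / s), Real.pi_le_four],
      by linarith [Real.arctan_lt_pi_div_two (z / s), Real.pi_le_four]⟩
  have a2 : 0 ≤ rc (X.R + 3) x * X.p x + (1 - rc (X.R + 3) x) * P.p₁ :=
    add_nonneg (mul_nonneg r0 p0) (mul_nonneg (by linarith) q0.le)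
  have a3 : rc (X.R + 3) x * X.p x + (1 - rc (X.R + 3) x) * P.p₁ ≤ X.p₀ := by
    nlinarith [mul_le_mul_of_nonneg_left p1 r0, mul_le_mul_of_nonneg_left q1 (sub_nonneg.2 r1)]
  refine (abs_add_le _ _).trans (add_le_add (hP.Tb z hz) ?_)
  rw [abs_mul, abs_of_nonneg a2, mul_comm 2]
  exact mul_le_mul a3 a1 (abs_nonneg _) hX.p0.le

/-- the trace of the gauge is bounded -/
theorem gauge_le {C₁ N θ K₀ ε A K : ℝ} {ψ : M → ℝ} (h : Cx X P C₁) (hψ : Ps X P A ψ)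
    (hf : Jk X P N θ K₀ ε A K ψ f) (hx : ‖px x‖ ≤ X.R + 7) {C₀ : ℝ}
    (hG : Ga P C₀ (ψ x) (ip X.g f f x)) :
    (P.φ₀ * (tr X.g (hess X.g f) x - P.Gs (ψ x) (ip X.g f f x) * C.b2 X.g (hess X.g f) f f x)) ^ 2 ≤
      (1 + P.φ₀ ^ 2 * ip X.g f f x) * (3 * P.CK + 2 * X.p₀) ^ 2 := by
  have hg := mg h.hX
  have t0 := hg.ip_nonneg f x
  have φ0 := h.hP.φ0.1
  have L1 := h.hP.pos.2.1
  have K1 := h.hP.pos.2.2.2.2.2.2.2.2
  have e := hf.eqn x hx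
  rw [ag_eq, rc_one (by linarith [h.hX.R1]) hx, one_mul] at e
  change pr2 (am X.g x (P.Gs (ψ x) (ip X.g f f x)) _) _ =
    _ * (pr2 (am X.g x (P.Gs (ψ x) (ip X.g f f x)) _) _ + _) at e
  have i0 : 0 < io P (ψ x) (ip X.g f f x) := lt_of_lt_of_le (by positivity) hG.io1
  have a1 := ((alg n M X.g x _ (D1 f x) hg hG.Gs0 (by
    change _ * ip X.g f f x ≤ 1
    rw [io] at i0
    linarith)).2.2.2.2.2 X.K (h.hX.syK x)).1.trans (h.fo.2 x)
  have a2 := abs_le_of_sq_le_sq a1 (by linarith)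
  have a3 := cap_le (x := x) h.hX h.hP h.fo (1 / A ^ 2) (hf.sup x)
  have a4 := (abs_add_le _ _).trans (add_le_add a2 a3)
  have a5 := pow_le_pow_left₀ (abs_nonneg _) a4 2
  have a6 : P.φ₀ ^ 2 * P.om (ψ x) (ip X.g f f x) ^ 2 ≤ 1 + P.φ₀ ^ 2 * ip X.g f f x := by
    refine (mul_le_mul_of_nonneg_left hG.om2 (sq_nonneg _)).trans ?_
    have y0 : 0 < ψ x := φ0.trans_le (hψ.bd x).1
    rw [mul_add, mul_one_div]
    exact add_le_add ((div_le_one (by positivity)).2 (pow_le_pow_left₀ φ0.le (hψ.bd x).1 2)) le_rfl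
  rw [sq_abs] at a5
  rw [← pr2_am, e, ← mul_assoc, mul_pow, mul_pow]
  exact mul_le_mul a6 (a5.trans (le_of_eq (by ring))) (sq_nonneg _) (by positivity)

/-- bounds on a ball -/
theorem ball_bd (hX : X.Ok) {s : ℝ} (hs : 0 ≤ s) (r : ℝ) : ∃ Λ ≥ (1 : ℝ), ∀ x : M, ‖px x‖ ≤ r →
    |scal X.g x| ≤ Λ ∧ normSq X.g (C.rc X.g) x ≤ Λ ^ 2 ∧ (∀ i j, |up X.g i j x| ≤ Λ) ∧
    (∀ k i j, |chr X.g k i j x - chr bg k i j x| ≤ Λ) ∧ (∀ i, |pd i (rc s) x| ≤ Λ) ∧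
      ∀ i j, |hess X.g (rc s) x i j| ≤ Λ := by
  have hg := mg hX
  have a1 := (D.BkH.evb hg.sm_scal.cont r).and
    (D.BkH.evb (hg.sm_normSq (C.RciH.sy_rc hg).sm).cont r)
  have a2 := (eventually_all.2 fun k => eventually_all.2 fun i => eventually_all.2 fun j =>
      D.BkH.evp (G := fun e y => Stmt.chr (rep e X.g) k i j y - Stmt.chr (rep e bg) k i j y)
        (fun e he => ((hg.rep he).sm_chr k i j).cont.sub ((bg_met.rep he).sm_chr k i j).cont) r).and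
      (eventually_all.2 fun i => eventually_all.2 fun j =>
        D.BkH.evp (G := fun e => Stmt.up (rep e X.g) i j)
          (fun e he => ((hg.rep he).sm_up i j).cont) r)
  obtain ⟨B, b1, ⟨⟨b2, b3⟩, b4, b5⟩, b6⟩ := ((eventually_ge_atTop 1).and
    ((a1.and a2).and (D.BkH.cutb hg hs))).exists
  exact ⟨B, b1, fun x hx => ⟨b2 x hx, ((le_abs_self _).trans (b3 x hx)).trans (by nlinarith),
    fun i j => up_pt X.g i j x ▸ b5 i j x hx, fun k i j => b4 k i j x hx,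
    fun i => (b6 i i x).1, fun i j => (b6 i j x).2⟩⟩

end FlrH

end Vale.Agent.P366M.Y
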