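import Vale.Agent.P366Q.Neck0

/-!
# P366Q: from the output of the analysis to a neck
-/

open MeasureTheory Metric Filter Topology Set
open scoped ContDiff ENNReal
open Vale.Agent.P366 Vale.Agent.P366.Stmt Vale.Agent.P366Z Vale.Agent.P366Y

noncomputable section

namespace Vale.Agent.P366M.Y

namespace NeckH

open Vale.Agent.P366M.Y.C.GbH Vale.Agent.P366M.Y.J
open P366Y.NeckH (has_rt)

variable {n : ℕ} {M : Type} [Mfe n M] {X : Dat n M} {σ₀ η ℓ φ₀ F₀ β : ℝ} {w f u : M → ℝ} {x : M}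

/-- the metric of the neck -/
def gN (X : Dat n M) (w f : M → ℝ) : Fld n M := C.gb X.g₀ (fun x => w x * X.U x ^ (-bb n)) f

/-- the factor of the neck -/
def uN (X : Dat n M) (u : M → ℝ) (x : M) : ℝ := X.U x * u x + X.ϖ x

theorem met_gN (hX : X.Ok) (hw : Smooth w) (hf : Smooth f) : Met (gN X w f) :=
  met_gb hX.met (CD.mul hw (hX.smU.rpow (U0 hX) _)) hf

theorem cf_gN (hX : X.Ok) (w f : M → ℝ) : cf X.U (gN X w f) = gb X.g w f := by
  funext x i j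
  have e : X.U x ^ (2 * bb n) * (X.U x ^ (-bb n)) ^ 2 = 1 := by
    rw [← Real.rpow_two, ← Real.rpow_mul (U0 hX x).le, ← Real.rpow_add (U0 hX x)]
    simp [mul_comm]
  simp only [cf, gN, C.gb, gb, Dat.g]
  linear_combination (w x ^ 2 * pd i f x * pd j f x) * e

theorem gN_eq (h : w x = 0) : gN X w f x = X.g₀ x := by
  funext i j
  simp [gN, C.gb, h]

theorem cl_cf (hn : 3 ≤ n) {g : Fld n M} {U v : M → ℝ} (hg : Met g) (hU : Smooth U)
    (h0 : ∀ x, 0 < U x) (hv : Smooth v) (x : M) :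
    cl g (fun y => U y * v y) x = U x ^ (2 * bb n) * U x * cl (cf U g) v x := by
  rw [G.scf n M g U v x hn hg hU h0 hv, Real.rpow_sub_one (h0 x).ne', Real.rpow_neg (h0 x).le]
  have := (h0 x).ne'
  have := (Real.rpow_pos_of_pos (h0 x) (2 * bb n)).ne'
  field_simp

theorem cl_U (hX : X.Ok) (x : M) :
    cl X.g₀ X.U x = X.U x ^ (2 * bb n) * X.U x * scal X.g x := by
  have h := cl_cf (v := fun _ => 1) hX.dim hX.met hX.smU (U0 hX) cd_const x
  simp only [mul_one] at h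
  rw [h, cl, lap_const]
  simp [Dat.g]

theorem scal_pos (hX : X.Ok) (h1 : X.R + 7 ≤ ‖px x‖) (h2 : ‖px x‖ ≤ X.R + 8) : 0 < scal X.g x := by
  have h := hX.dec' x (by linarith) h2
  have e := hX.K0 x (by linarith)
  simp only [mu, tr, normSq, e, Pi.zero_apply, mul_zero, Finset.sum_const_zero] at h
  linarith

section

variable (hX : X.Ok) (hS : Sol X σ₀ η ℓ w f u φ₀ F₀ β) (hη : η ≤ 1 / 16)
include hX hS hη

theorem u_lo (x : M) : 7 / 8 ≤ u x := by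
  have := hX.dim
  linarith [hS.lo x]

theorem uN_lo (x : M) : 1 / 2 ≤ uN X u x := by
  have h1 := u_lo hX hS hη x
  have h2 := (hX.Ub x).1
  have h3 := (hX.ϖb x).1
  rw [uN]
  nlinarith

theorem cl_uN (hf : |f x| ≤ F₀ / 2) : X.U x ^ (2 * bb n) * X.U x * u x *
    (rc (X.R + 7) x * σ₀ + (1 - rc (X.R + 7) x) * scal X.g x) + cl (gN X w f) X.ϖ x ≤
      cl (gN X w f) (uN X u) x := by
  have hg := met_gN hX hS.smw hS.smf
  have u0 : 0 < u x := by linarith [u_lo hX hS hη x]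
  have e1 := cl_cf hX.dim hg hX.smU (U0 hX) hS.smu x
  have e2 : cl (gN X w f) (uN X u) x =
      cl (gN X w f) (fun y => X.U y * u y) x + cl (gN X w f) X.ϖ x := by
    unfold cl uN
    rw [hg.lap_add (Smooth.c2 (CD.mul hX.smU hS.smu) x) (hX.smϖ.c2 x)]
    ring
  have e3 : cl (gb X.g w f) u x =
      u x * (scal (gb X.g w f) x - 4 * gam n * lap (gb X.g w f) u x / u x) := by
    rw [cl]
    field_simp
    ring
  have p := U0 hX x
  rw [e2, e1, cf_gN hX, e3, ← mul_assoc]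
  exact add_le_add (mul_le_mul_of_nonneg_left (hS.pos x hf) (by positivity)) le_rfl

theorem ev_g (hx : X.R + 7 < ‖px x‖) : gN X w f =ᶠ[𝓝 x] X.g₀ := by
  have := hη
  have := hX.dim
  filter_upwards [ev_lt_px hx] with y hy
  exact gN_eq (hS.w0 y (le_of_lt hy))

theorem cl_out (hx : X.R + 8 ≤ ‖px x‖) :
    cl X.g₀ X.U x / 2 + cl X.g₀ X.ϖ x ≤ cl (gN X w f) (uN X u) x := by
  have R1 := hX.R1
  have h := cl_uN hX hS hη ((hS.out x (by linarith)).trans (by linarith [hS.φ0.2.2.1]))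
  have ev := ev_g hX hS hη (x := x) (by linarith)
  have e : cl (gN X w f) X.ϖ x = cl X.g₀ X.ϖ x := by
    rw [cl, cl, lap_of_ev ev, scal_of_ev ev]
  rw [rc_zero (by linarith) (by linarith), e] at h
  have h1 := (hX.sc x hx).1
  have h2 := mul_le_mul_of_nonneg_right (u_lo hX hS hη x) h1
  rw [cl_U hX] at h1 h2 ⊢
  linarith

theorem cl_in (hx : ‖px x‖ < X.R + 8) (hf : |f x| ≤ F₀ / 2) : X.U x ^ (2 * bb n) *
    (rc (X.R + 7) x * σ₀ + (1 - rc (X.R + 7) x) * scal X.g x) * uN X u x ≤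
      cl (gN X w f) (uN X u) x := by
  have h := cl_uN hX hS hη hf
  have ev : X.ϖ =ᶠ[𝓝 x] fun _ => 0 := by
    filter_upwards [ev_px_lt hx] with y hy
    exact hX.ϖ0 y (le_of_lt hy)
  rw [cl, lap_congr ev, lap_const, hX.ϖ0 x hx.le] at h
  rw [uN, hX.ϖ0 x hx.le]
  linarith

theorem lap_Uu (hx : X.ρ + 1 ≤ ‖px x‖) : lap X.g₀ (fun y => X.U y * u y) x = 0 := by
  have := hη
  have h := hS.harm x hx
  rw [Dat.g, hX.met.lap_cf hX.dim (U0 hX)] at h
  rw [hX.met.lap_mul_wl (hX.smU.c2 x) (hS.smu.c2 x) (U0 hX x).ne', hX.harm x (by linarith),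
    (mul_eq_zero.1 h).resolve_left (Real.rpow_pos_of_pos (U0 hX x) _).ne']
  simp

theorem lap_uN (hx : X.ρ + 1 ≤ ‖px x‖) : lap (gN X w f) (uN X u) x = lap X.g₀ X.ϖ x := by
  rw [lap_of_ev (ev_g hX hS hη (by linarith [hX.Rρ]))]
  unfold uN
  rw [hX.met.lap_add (Smooth.c2 (CD.mul hX.smU hS.smu) x) (hX.smϖ.c2 x),
    lap_Uu hX hS hη hx, zero_add]

omit hη in
theorem ip_t {κ : ℝ} (hx : ‖px x‖ ≤ X.R + 6) :
    ip (gN X w f) (fun y => κ * φ₀ * (√(1 + f y ^ 2) - 2))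
      (fun y => κ * φ₀ * (√(1 + f y ^ 2) - 2)) x ≤ κ ^ 2 * X.U x ^ (2 * bb n) := by
  have hg := met_gN hX hS.smw hS.smf
  have d : ∀ i, pd i (fun y => κ * φ₀ * (√(1 + f y ^ 2) - 2)) x =
      κ * φ₀ * (f x / √(1 + f x ^ 2)) * pd i f x := fun i => by
    rw [pd_const_mul, pd_sub_const, pd_comp (has_rt (f x)) (hS.smf.diff x), ← mul_assoc]
  have h1 := ip_le hX.met (fun x => w x * X.U x ^ (-bb n)) f x
  change _ * ip (gN X w f) f f x ≤ 1 at h1
  have h2 := hg.ip_nonneg f x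
  have h3 : (f x / √(1 + f x ^ 2)) ^ 2 ≤ 1 := by
    rw [div_pow, Real.sq_sqrt (by positivity), div_le_one (by positivity)]
    linarith
  have h4 : φ₀ ^ 2 ≤ w x ^ 2 := pow_le_pow_left₀ hS.φ0.1.le (hS.wlo x hx) 2
  have e : X.U x ^ (2 * bb n) * (X.U x ^ (-bb n)) ^ 2 = 1 := by
    rw [← Real.rpow_two, ← Real.rpow_mul (U0 hX x).le, ← Real.rpow_add (U0 hX x)]
    simp [mul_comm]
  have p : 0 < X.U x ^ (2 * bb n) := Real.rpow_pos_of_pos (U0 hX x) _
  have h5 : w x ^ 2 * ip (gN X w f) f f x ≤ X.U x ^ (2 * bb n) := by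
    have h6 := mul_le_mul_of_nonneg_left h1 p.le
    rw [mul_pow] at h6
    linear_combination h6 - (w x ^ 2 * ip (gN X w f) f f x) * e
  have h7 := mul_le_mul (mul_le_mul h4 h3 (sq_nonneg _) (sq_nonneg _)) le_rfl h2 (by positivity)
  rw [ip_of_pd d d]
  nlinarith [mul_le_mul_of_nonneg_left (h7.trans (by simpa only [mul_one] using h5)) (sq_nonneg κ)]

end

theorem cmp_N {D : Exterior n M} {η₀ η' : ℝ} (hX : X.Ok) (hS : Sol X σ₀ η ℓ w f u φ₀ F₀ β)
    (η0 : 0 ≤ η) (hη : η ≤ 1 / 16) (h0 : 0 ≤ η₀) (h1 : η₀ + 8 * η ≤ η')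
    (h : G.Cmp D η₀ X.g₀ X.U) : G.Cmp D η' (gN X w f) (uN X u) := by
  intro x hx ξ
  have a0 : 0 ≤ dens D.g x * covNorm D.g (fun i _ => ξ i) x :=
    mul_nonneg (dens_nonneg _ _) (Real.sqrt_nonneg _)
  have a1 := h x hx ξ
  have a2 := cov_gb hX.met (fun x => w x * X.U x ^ (-bb n)) f x ξ
  change _ ≤ covNorm (gN X w f) _ x * dens (gN X w f) x at a2
  have a3 : 0 ≤ covNorm X.g₀ (fun i _ => ξ i) x * dens X.g₀ x :=
    mul_nonneg (Real.sqrt_nonneg _) (dens_nonneg _ _)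
  have p := U0 hX x
  have γ1 := one_lt_gam hX.dim
  have b1 : (1 - 8 * η) * X.U x ^ (2 * gam n) ≤ uN X u x ^ (2 * gam n) := by
    have c1 : (1 - 2 * η) * X.U x ≤ uN X u x := by
      rw [uN]
      nlinarith [hS.lo x, (hX.ϖb x).1]
    refine le_trans ?_ (Real.rpow_le_rpow (by nlinarith) c1 (by linarith))
    rw [Real.mul_rpow (by linarith) p.le]
    refine mul_le_mul_of_nonneg_right ?_ (by positivity)
    refine le_trans ?_ (Real.rpow_le_rpow_of_exponent_ge (z := 2 * gam n) (y := (4 : ℕ))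
      (by linarith) (by linarith) (by push_cast; linarith [gam_le hX.dim]))
    rw [Real.rpow_natCast]
    have c2 := one_add_mul_le_pow (a := -(2 * η)) (by linarith) 4
    push_cast at c2
    rw [sub_eq_add_neg 1 (2 * η)]
    linarith
  have b2 : 0 ≤ X.U x ^ (2 * gam n) := by positivity
  rw [mul_assoc (X.U x ^ _)] at a1
  rw [mul_assoc (uN X u x ^ _)]
  calc _ ≤ (1 - 8 * η) * ((1 - η₀) * (dens D.g x * covNorm D.g (fun i _ => ξ i) x)) := by
        rw [← mul_assoc (1 - 8 * η)]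
        exact mul_le_mul_of_nonneg_right (by nlinarith) a0
    _ ≤ (1 - 8 * η) * (X.U x ^ (2 * gam n) *
          (covNorm X.g₀ (fun i _ => ξ i) x * dens X.g₀ x)) :=
        mul_le_mul_of_nonneg_left a1 (by linarith)
    _ ≤ _ := by
        rw [← mul_assoc]
        exact mul_le_mul b1 a2 a3 ((mul_nonneg (by linarith) b2).trans b1)

end NeckH

open Vale.Agent.P366M.Y.NeckH Vale.Agent.P366M.Y.J in
/-- the neck -/
theorem neck_of {n : ℕ} {M : Type} [Mfe n M] {D : Exterior n M} {m : ℝ} (hn : 3 ≤ n)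
    (h0 : ∀ η > (0 : ℝ), ∃ ρ : ℝ, ∀ δ > (0 : ℝ), ∃ X : Dat n M, X.Ok ∧ X.ρ = ρ ∧ X.Of D m η δ)
    (h1 : ∀ X : Dat n M, X.Ok → ∀ η ∈ Ioc (0 : ℝ) (1 / 16), ∃ σ₀ > (0 : ℝ), ∀ ℓ : ℝ,
      ∃ w f u φ₀ F₀ β, Sol X σ₀ η ℓ w f u φ₀ F₀ β) : G.Neck D m := by
  intro η hη
  obtain ⟨e, he⟩ : ∃ e, e = min η 1 := ⟨_, rfl⟩
  have e0 : 0 < e := he ▸ lt_min hη one_pos
  have e1 : e ≤ η := he ▸ min_le_left _ _
  have e2 : e ≤ 1 := he ▸ min_le_right _ _
  obtain ⟨ρ, h0⟩ := h0 (e / 2) (half_pos e0)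
  obtain ⟨ρ1, ρ2⟩ : 11 ≤ ρ ∧ R0 M + 1 ≤ ρ := by
    obtain ⟨X, hX, h, -⟩ := h0 1 one_pos
    exact ⟨by linarith [hX.R1, hX.Rρ], by linarith [hX.RM, hX.Rρ]⟩
  obtain ⟨R', R1, hR'⟩ := far (M := M) hn (R := ρ + 1) (b := |m| + 1) (by linarith) (by positivity)
  refine ⟨2 * R', by linarith, fun δ hδ => ?_⟩
  obtain ⟨X, hX, rfl, hO⟩ := h0 (δ / 2) (half_pos hδ)
  have Rρ := hX.Rρ
  have R2 := hX.R1
  obtain ⟨σ₀, σ0, h1⟩ := h1 X hX (e / 16) ⟨by positivity, by linarith⟩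
  have hη' : e / 16 ≤ 1 / 16 := by linarith
  have cc : ∀ v, Smooth v → Continuous (cl X.g₀ v) := fun v hv =>
    (continuous_const.mul (hX.met.sm_lap hv).cont).add (hX.met.sm_scal.cont.mul hv.cont)
  obtain ⟨c₁, c1, hc⟩ := ((isCompact_px M (2 * R')).inter_left
    (isClosed_le continuous_const cont_npx : IsClosed {x : M | R' ≤ ‖px x‖})).exists_forall_le'
    (((cc _ hX.smU).div_const 2).add (cc _ hX.smϖ)).continuousOn
    fun x hx => (hX.sc x (le_trans (by linarith) hx.1)).2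
  obtain ⟨κ, hκ⟩ : ∃ κ, κ = min σ₀ 1 := ⟨_, rfl⟩
  have κ0 : 0 < κ := hκ ▸ lt_min σ0 one_pos
  have κ1 : κ ≤ σ₀ := hκ ▸ min_le_left _ _
  have κ2 : κ ≤ 1 := hκ ▸ min_le_right _ _
  refine ⟨min (c₁ / 2) (1 / 2), by positivity, fun ℓ => ?_⟩
  obtain ⟨w, f, u, φ₀, F₀, β, hS⟩ := h1 (2 * |ℓ| / κ + 4)
  obtain ⟨φ0, φ1, F4, hℓ⟩ := hS.φ0
  have hℓ' : 2 * |ℓ| + 4 * κ ≤ κ * (φ₀ * F₀) := by
    refine le_trans (le_of_eq ?_) (mul_le_mul_of_nonneg_left hℓ κ0.le)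
    field_simp
  have hg := met_gN hX hS.smw hS.smf
  have s1 : Smooth fun x => X.U x * u x := CD.mul hX.smU hS.smu
  have s2 : Smooth (uN X u) := CD.add s1 hX.smϖ
  have lo := uN_lo hX hS hη'
  have p : ∀ x, 0 < uN X u x := fun x => by linarith [lo x]
  have β2 : 0 ≤ X.β₂ :=
    (asy n M X.ϖ X.ϖ 0 0 X.β₂ 0 hn hX.smϖ hX.smϖ hX.ϖa).2.2.2.2 ⟨0, fun x _ => (hX.ϖb x).1⟩
  have A1 : Asy (uN X u) 1 (β + X.β₂) := by
    have h := (asy n M _ X.ϖ 1 0 β X.β₂ hn s1 hX.smϖ hS.asy).2.2.1 1 1 hX.ϖa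
    simp only [one_mul, mul_zero, add_zero] at h
    exact h
  have hi : ∀ x, 2 * R' / 2 ≤ ‖px x‖ → uN X u x ≤ 3 / 2 := fun x hx => by
    have h := hR' _ β s1 (fun y hy => ⟨mul_nonneg (U0 hX y).le (by linarith [u_lo hX hS hη' y]), by
      rw [← hX.flat.lap_eq (by linarith), lap_Uu hX hS hη' hy]⟩) hS.asy
      (by linarith [hS.mass, hO.mass, le_abs_self m, abs_nonneg m]) x (by linarith)
    rw [uN]
    linarith [(hX.ϖb x).2]
  have eS : ∀ x, scal (gN X w f) x - 4 * gam n * (lap (gN X w f) (uN X u) x / uN X u x) =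
      cl (gN X w f) (uN X u) x / uN X u x := fun x => by
    have := (p x).ne'
    rw [cl]
    field_simp
    ring
  have r1 : ∀ x, |f x| ≤ √(1 + f x ^ 2) := fun x => Real.abs_le_sqrt (by linarith)
  have r2 : ∀ x, |f x| ≤ 1 → κ * φ₀ * (√(1 + f x ^ 2) - 2) < 0 := fun x hx => by
    refine mul_neg_of_pos_of_neg (by positivity) (sub_neg.2 ((Real.sqrt_lt' two_pos).2 ?_))
    nlinarith [abs_nonneg (f x), sq_abs (f x)]
  have r3 : ∀ x, κ * φ₀ * (√(1 + f x ^ 2) - 2) ≤ ℓ → |f x| ≤ F₀ / 2 := fun x hx => by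
    refine (r1 x).trans (le_of_mul_le_mul_left ?_ (mul_pos κ0 φ0))
    linarith [le_abs_self ℓ, mul_le_mul_of_nonneg_left φ1 κ0.le]
  refine ⟨gN X w f, uN X u, fun x => lap (gN X w f) (uN X u) x / uN X u x,
    fun y => κ * φ₀ * (√(1 + f y ^ 2) - 2), β + X.β₂, hg,
    ⟨by linarith, fun x hx => (gN_eq (hS.w0 x (by linarith))).trans (hX.flat.eq x (by linarith))⟩,
    s2,
    cd_const.mul (((cd_const.add (CD.pow hS.smf 2)).sqrt
      fun x => by positivity).sub cd_const), lo, hi,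
    fun x => (div_mul_cancel₀ _ (p x).ne').symm, fun x hx => ?_, ?_, A1,
    by linarith [hS.mass, hO.mass], fun x hx => ?_, fun x hx => (r2 x (hS.out x (by linarith))).le,
    fun x a1 a2 => ?_, fun x a1 a2 => ?_, fun x hx => ?_,
    cmp_N hX hS (by positivity) hη' (half_pos e0).le (by linarith) hO.cmp⟩
  · obtain ⟨a1, a2⟩ := hO.src x (by linarith)
    rw [lap_uN hX hS hη' (by linarith), le_div_iff₀ (p x)]
    have a3 : 0 ≤ δ * ‖px x‖ ^ (-(n + 2) : ℝ) := by positivity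
    exact ⟨by nlinarith [lo x], div_nonpos_of_nonpos_of_nonneg a2 (p x).le⟩
  · obtain ⟨C₁, a1⟩ := hX.ϖd
    obtain ⟨-, C₂, a2⟩ := (asy n M _ _ 1 0 _ 0 hn s2 s2 A1).1
    refine ⟨2 * C₁ + 4 * δ * C₂, fun x hx => ?_⟩
    have ev : (fun x => lap (gN X w f) (uN X u) x / uN X u x) =ᶠ[𝓝 x]
        fun x => lap X.g₀ X.ϖ x / uN X u x := by
      filter_upwards [ev_lt_px
        (show X.ρ + 1 < ‖px x‖ by linarith)] with y hy
      rw [lap_uN hX hS hη' (le_of_lt hy)]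
    obtain ⟨a3, a4⟩ := hO.src x (by linarith)
    have a5 : ‖px x‖ ^ (-(n + 2) : ℝ) ≤ 1 :=
      Real.rpow_le_one_of_one_le_of_nonpos (by linarith) (neg_nonpos.2 (by positivity))
    rw [fd_congr ev]
    exact quot_bd (hX.met.sm_lap hX.smϖ) s2 (lo x) (abs_le.2 ⟨by nlinarith, by linarith⟩) (a1 x)
      (a2 x)
  · rw [eS]
    refine div_pos ?_ (p x)
    rcases lt_or_ge ‖px x‖ (X.R + 8) with h | h
    · refine lt_of_lt_of_le (mul_pos (mul_pos (Real.rpow_pos_of_pos (U0 hX x) _) ?_) (p x))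
        (cl_in hX hS hη' h (r3 x hx))
      rcases le_total ‖px x‖ (X.R + 7) with k | k
      · rw [rc_one (by linarith) k]
        linarith
      · have k1 := scal_pos hX k h.le
        have k2 : 0 ≤ rc (X.R + 7) x := Real.smoothTransition.nonneg _
        have k3 : rc (X.R + 7) x ≤ 1 := Real.smoothTransition.le_one _
        have k4 := lt_min σ0 k1
        nlinarith [mul_le_mul_of_nonneg_left (min_le_left σ₀ (scal X.g x)) k2,
          mul_le_mul_of_nonneg_left (min_le_right σ₀ (scal X.g x)) (sub_nonneg.2 k3)]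
    · exact (hX.sc x h).2.trans_le (cl_out hX hS hη' h)
  · rw [eS, le_div_iff₀ (p x)]
    have a3 : c₁ ≤ cl X.g₀ X.U x / 2 + cl X.g₀ X.ϖ x :=
      hc x ⟨(by linarith : R' ≤ ‖px x‖), a2⟩
    have a4 := mul_le_mul (min_le_left (c₁ / 2) (1 / 2)) (hi x a1) (p x).le (by positivity)
    linarith [cl_out hX hS hη' (x := x) (by linarith)]
  · have a3 : ‖px x‖ < X.R + 1 := not_le.1 fun h => (r2 x (hS.out x h)).not_ge a1
    have a4 := ip_t hX hS (κ := κ) (x := x) (by linarith)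
    have a5 := cl_in hX hS hη' (by linarith) (r3 x a2)
    have q : 0 < X.U x ^ (2 * bb n) := Real.rpow_pos_of_pos (U0 hX x) _
    have a6 : X.U x ^ (2 * bb n) ≤ 4 := by
      refine (Real.rpow_le_rpow (U0 hX x).le (hX.Ub x).2 (by linarith [bb_pos hn])).trans
        ((Real.rpow_le_rpow_of_exponent_le (z := (4 : ℕ)) (by norm_num)
          (by push_cast; linarith [bb_le hn])).trans ?_)
      rw [Real.rpow_natCast]
      norm_num
    have a7 : κ ^ 2 ≤ κ := pow_le_of_le_one κ0.le κ2 two_ne_zero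
    rw [rc_one (by linarith) (by linarith)] at a5
    refine ⟨?_, ?_⟩
    · rw [eS, le_div_iff₀ (p x)]
      refine le_trans (mul_le_mul_of_nonneg_right (a4.trans ?_) (p x).le) a5
      linarith [mul_le_mul_of_nonneg_right (a7.trans κ1) q.le]
    · have a8 : gn (gN X w f) (fun y => κ * φ₀ * (√(1 + f y ^ 2) - 2)) x ≤ 2 :=
        Real.sqrt_le_iff.2 ⟨by norm_num, a4.trans
          ((mul_le_mul (a7.trans κ2) a6 q.le zero_le_one).trans (by norm_num))⟩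
      have a9 := mul_le_mul (min_le_right (c₁ / 2) (1 / 2)) a8 (gn_nonneg _ _ _) (by norm_num)
      linarith
  · have a1 := hS.inn x (hO.deep x hx)
    have a2 := mul_le_mul_of_nonneg_left (a1.trans ((le_abs_self _).trans (r1 x)))
      (mul_pos κ0 φ0).le
    linarith [le_abs_self ℓ, mul_le_mul_of_nonneg_left φ1 κ0.le, abs_nonneg ℓ]

end Vale.Agent.P366M.Y
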