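import Vale.Agent.P366Q.K.Sol
import Vale.Agent.P366Q.K.Psi
import Vale.Agent.P366Q.K.Lam
import Vale.Agent.P366Q.K.Nl
import Vale.Agent.P366Q.K.Hic
import Vale.Agent.P366Q.K.Cap2
import Vale.Agent.P366Q.K.Ufar
import Vale.Agent.P366Q.T.Mol
import Vale.Agent.P366Q.T.Regq
import Vale.Agent.P366Q.T.Nats
import Vale.Agent.P366Q.T.Intp
import Vale.Agent.P366Q.T.Usch
import Vale.Agent.P366Q.T.Qe
import Vale.Agent.P366Q.J.All
import Vale.Agent.P366Q.F.Uex
import Vale.Agent.P366Q.C.All
import Vale.Agent.P366Q.D.All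
import Vale.Agent.P366Q.A.All
import Vale.Agent.P366Q.B.All
import Vale.Agent.P366Q.Flo
import Vale.Agent.P366Q.Neck

/-!
# P366Q: the spacetime Penrose inequality on manifolds follows from the inequality for necks
-/

namespace Vale.Agent.P366M.Y

theorem sol2 : SOL :=
  sol_of (J.jall2_of' intp usch qe regq) (F.uex_of regq qe nats) C.mass psi_ mol gbf lam_ nl flo_
    hic D.tst cap_ ufar

theorem en2 (hG : G.RPS) : EN := fun n M _ D m hn h1 h2 h3 h4 =>
  hG n M D m hn (neck_of hn (A.red0 n M D m hn h1 h2 h3 h4) (sol2 n M))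

theorem full_rps (hG : G.RPS) : FULL := B.full_of (en2 hG)

end Vale.Agent.P366M.Y
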