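import Vale.Agent.P366Q.Sk2
import Vale.Agent.P366Y.J.Defs2
import Vale.Agent.P366Y.F.Defs
import Vale.Agent.P366Q.C.Defs2

/-!
# P366Q: the definitions which are shared by the blocks
-/

open MeasureTheory Metric Filter Topology Set
open scoped ContDiff ENNReal
open Vale.Agent.P366 Vale.Agent.P366.Stmt Vale.Agent.P366Z Vale.Agent.P366Y

noncomputable section

namespace Vale.Agent.P366M.Y

variable {n : ℕ} {M : Type} [Mfe n M]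

/-! ### block J -/

namespace J

/-- the data and the parameters fit -/
structure Cx (X : Dat n M) (P : Pa) (C : ℝ) : Prop where
  hX : X.Ok
  hP : P.Ok
  fo : P.ForM X
  big : P.Big C

/-- the bounds of order zero and one -/
def B1 (P : Pa) (N : ℝ) (f : M → ℝ) : Prop := ∀ x, |f x| ≤ 8 * P.F₀ ∧ ‖fd f x‖ ≤ N

/-- the gradient is Hölder continuous at the scale `1 / A` -/
def Hs (θ K A : ℝ) (f : M → ℝ) : Prop := ∀ x, ∀ y ∈ ball (pt x) 1, ∀ z ∈ ball (pt x) 1,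
  ‖rC (ch x) (D1 f) y - rC (ch x) (D1 f) z‖ ≤ K * (A * ‖y - z‖) ^ θ

/-- everything about `f` -/
structure Jk (X : Dat n M) (P : Pa) (N θ K₀ ε A K : ℝ) (ψ f : M → ℝ) : Prop where
  sm : Smooth f
  eqn : ∀ x, ‖px x‖ ≤ X.R + 7 → pr2 (ag X P ψ x (D1 f x)) (hess X.g f x) =
    P.om (ψ x) (ip X.g f f x) * (pr2 (ag X P ψ x (D1 f x)) (X.K x) + cap X P (1 / A ^ 2) x (f x))
  sup : ∀ x, |f x| ≤ 8 * P.F₀
  grad : ∀ x, ‖fd f x‖ ≤ N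
  inn : ∀ x, X.F x ≤ 0 → 2 * P.F₀ ≤ f x
  out : ∀ x, X.R + 1 ≤ ‖px x‖ → |f x| ≤ 1 / A ^ 2
  d2 : ∀ x, ‖D2 f x‖ ≤ K₀ * A
  c2 : C2H θ K f
  tiny : ∀ x, X.R + 4 ≤ ‖px x‖ → ‖px x‖ ≤ X.R + 6 → A ^ 2 * |f x| ≤ ε ∧ A ^ 2 * ‖D1 f x‖ ≤ ε

/-- **JALL2**: the output of the block, with `s = 1 / A²` -/
def JALL2 : Prop := ∀ (n : ℕ) (M : Type) [Mfe n M] (X : Dat n M), X.Ok → ∃ C : ℝ, ∀ P : Pa,
  Cx X P C → ∃ N ≥ (1 : ℝ), ∃ θ ∈ Ioo (0 : ℝ) 1, ∃ K₀ > (0 : ℝ), ∀ ε > (0 : ℝ), ∃ A₀ ≥ (1 : ℝ),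
    ∀ A ≥ A₀, ∃ (K : ℝ) (Φ : (M → ℝ) → M → ℝ),
      (∀ ψ, Ps X P A ψ → Jk X P N θ K₀ ε A K ψ (Φ ψ)) ∧
      ∀ e > (0 : ℝ), ∃ d > (0 : ℝ), ∀ ψ ψ', Ps X P A ψ → Ps X P A ψ' → (∀ x, |ψ x - ψ' x| ≤ d) →
        ∀ x, |Φ ψ x - Φ ψ' x| ≤ e ∧ ‖D1 (Φ ψ) x - D1 (Φ ψ') x‖ ≤ e ∧
          ‖D2 (Φ ψ) x - D2 (Φ ψ') x‖ ≤ e

end J

/-! ### block F -/

namespace F

/-- the continuity of nonlocal data -/
def Ct {W : Type} [NormedAddCommGroup W] (ρ : ℝ) (w : (M → ℝ) → M → W) : Prop :=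
  ∀ e > (0 : ℝ), ∃ d > (0 : ℝ), ∀ h h', Continuous h → Continuous h' →
    (∀ x, ‖px x‖ ≤ ρ → |h x - h' x| ≤ d) → ∀ x, ‖w h x - w h' x‖ ≤ e

/-- nonlocal functions -/
structure NlS {W : Type} [NormedAddCommGroup W] [NormedSpace ℝ W] (ρ β A : ℝ)
    (w : (M → ℝ) → M → W) : Prop where
  sm : ∀ h, Continuous h → CD ∞ (w h)
  ho : ∀ h, Continuous h → HoS β A (w h)
  ct : Ct ρ w

/-- nonlocal functions of class `C^(2, β)` -/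
structure Nl2 (ρ β A : ℝ) (w : (M → ℝ) → M → ℝ) : Prop where
  sm : ∀ h, Continuous h → Smooth (w h)
  ho : ∀ h, Continuous h → C2H β A (w h)
  c1 : Ct ρ fun h => D1 (w h)
  c2 : Ct ρ fun h => D2 (w h)

/-- the data of the equation for `u` -/
structure Ud (X : Dat n M) (φ : ℝ → ℝ) {m : ℕ} (θ : Fin m → ℝ → ℝ) (ft : (M → ℝ) → M → ℝ)
    (lm : (M → ℝ) → M → Fin m → ℝ) (β A a b : ℝ) : Prop where
  smφ : ContDiff ℝ ∞ φ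
  wb : P366Y.F.Wb φ
  smθ : ∀ k, ContDiff ℝ ∞ (θ k)
  β0 : β ∈ Ioo (0 : ℝ) 1
  ab : 1 / 2 ≤ a ∧ a ≤ 1 ∧ 1 ≤ b
  f0 : ∀ h, Continuous h → ∀ x, X.R + 6 ≤ ‖px x‖ → ft h x = 0
  n2 : Nl2 X.ρ β A ft
  n3 : NlS X.ρ β A lm
  lo : ∀ u, Smooth u → ∀ x, ‖px x‖ ≤ X.ρ → IsLocalMin u x → u x < a →
    scal (gb X.g (fun y => φ (u y)) (ft u)) x < P366Y.F.La θ (lm u x) (u x)
  hi : ∀ u, Smooth u → ∀ x, ‖px x‖ ≤ X.ρ → IsLocalMax u x → b < u x →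
    P366Y.F.La θ (lm u x) (u x) < scal (gb X.g (fun y => φ (u y)) (ft u)) x
  lo' : ∀ h, Continuous h → ∀ x z, X.ρ ≤ ‖px x‖ → z < a → 0 ≤ P366Y.F.La θ (lm h x) z
  hi' : ∀ h, Continuous h → ∀ x z, X.ρ ≤ ‖px x‖ → b < z → P366Y.F.La θ (lm h x) z ≤ 0
  far : ∀ h, Continuous h → ∀ x z, X.ρ + 1 ≤ ‖px x‖ → P366Y.F.La θ (lm h x) z = 0

/-- **UEX**: the conformal factor exists -/
def UEX : Prop := ∀ (n : ℕ) (M : Type) [Mfe n M] (X : Dat n M) (φ : ℝ → ℝ) (m : ℕ)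
  (θ : Fin m → ℝ → ℝ) ft lm (β A a b : ℝ), X.Ok → Ud X φ θ ft lm β A a b → ∃ u, Smooth u ∧
    Tendsto u (cocompact M) (𝓝 1) ∧ (∀ x, a ≤ u x ∧ u x ≤ b) ∧
    ∀ x, cl (gb X.g (fun y => φ (u y)) (ft u)) u x = P366Y.F.La θ (lm u x) (u x) * u x

end F

end Vale.Agent.P366M.Y
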