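import Vale.Agent.P366Y.Neck0
import Vale.Agent.P366Q.J.Defs
import Vale.Agent.P366Q.C.Hi
import Vale.Agent.P366Q.C.Gb
import Vale.Agent.P366Q.G.Scf
import Vale.Agent.P366M.SkE

/-!
# P366Q: tools for the construction of the neck
-/

open MeasureTheory Metric Filter Topology Set
open scoped ContDiff ENNReal
open Vale.Agent.P366 Vale.Agent.P366.Stmt Vale.Agent.P366Z Vale.Agent.P366Y

noncomputable section

namespace Vale.Agent.P366M.Y

namespace NeckH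

open Vale.Agent.P366M.Y.C.GbH

variable {n : ℕ} {M : Type} [Mfe n M] {g : Fld n M} {φ f : M → ℝ} {x : M}

theorem cov_gb (hg : Met g) (φ f : M → ℝ) (x : M) (ξ : Fin n → ℝ) :
    covNorm g (fun i _ => ξ i) x * dens g x ≤
      covNorm (C.gb g φ f) (fun i _ => ξ i) x * dens (C.gb g φ f) x := by
  obtain ⟨A, hA⟩ : ∃ A, A = ∑ i, ∑ j, up g i j x * ξ i * ξ j := ⟨_, rfl⟩
  obtain ⟨c, hc⟩ : ∃ c, c = ∑ i, ξ i * gr g f i x := ⟨_, rfl⟩
  obtain ⟨W, hW⟩ : ∃ W, W = C.ww g φ f x := ⟨_, rfl⟩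
  have W1 : 1 ≤ W := hW ▸ one_le_ww hg φ f x
  have W2 : W ^ 2 = 1 + φ x ^ 2 * ip g f f x := hW ▸ ww_sq hg φ f x
  have e1 : ∑ i, ∑ j, up (C.gb g φ f) i j x * ξ i * ξ j = A - φ x ^ 2 * c ^ 2 / W ^ 2 := by
    rw [hA, hc, pow_two (∑ i, ξ i * gr g f i x), Finset.sum_mul_sum, Finset.mul_sum, Finset.sum_div,
      ← Finset.sum_sub_distrib]
    refine Finset.sum_congr rfl fun i _ => ?_
    rw [Finset.mul_sum, Finset.sum_div, ← Finset.sum_sub_distrib]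
    refine Finset.sum_congr rfl fun j _ => ?_
    rw [up_gb hg, ← hW]
    ring
  have e2 : c ^ 2 ≤ A * ip g f f x := by
    have h := hg.up_cs x ξ fun i => pd i f x
    rw [← hA] at h
    refine le_trans (le_of_eq ?_) h
    rw [hc]
    simp only [gr, Finset.mul_sum]
    congr 1
    exact Finset.sum_congr rfl fun i _ => Finset.sum_congr rfl fun j _ => by ring
  have e3 : A ≤ (A - φ x ^ 2 * c ^ 2 / W ^ 2) * W ^ 2 := by
    rw [sub_mul, div_mul_cancel₀ _ (by positivity), W2]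
    nlinarith [mul_le_mul_of_nonneg_left e2 (sq_nonneg (φ x))]
  rw [dens_gb hg, ← hW, ← mul_assoc]
  refine mul_le_mul_of_nonneg_right ?_ (dens_nonneg _ _)
  rw [covNorm, covNorm, e1, ← hA]
  refine (Real.sqrt_le_sqrt e3).trans (le_of_eq ?_)
  rw [Real.sqrt_mul' _ (sq_nonneg W), Real.sqrt_sq (by linarith)]

theorem ip_le (hg : Met g) (φ f : M → ℝ) (x : M) : φ x ^ 2 * ip (C.gb g φ f) f f x ≤ 1 := by
  have W2 := ww_sq hg φ f x
  have W1 := one_le hg φ f x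
  rw [ip_gb hg, W2]
  have e : φ x ^ 2 * (ip g f f x - φ x ^ 2 * ip g f f x * ip g f f x / (1 + φ x ^ 2 * ip g f f x)) =
      φ x ^ 2 * ip g f f x / (1 + φ x ^ 2 * ip g f f x) := by
    field_simp
    ring
  rw [e, div_le_one (by linarith)]
  linarith

/-- harmonic functions are close to the limit far away -/
theorem far (hn : 3 ≤ n) {R b : ℝ} (hR : R0 M + 1 ≤ R) (hb : 0 ≤ b) : ∃ R' ≥ R,
    ∀ (v : M → ℝ) (β : ℝ), Smooth v → (∀ x, R ≤ ‖px x‖ → 0 ≤ v x ∧ lap (eu n) v x = 0) →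
    Asy v 1 β → β ≤ b → ∀ x, R' ≤ ‖px x‖ → v x ≤ 11 / 8 := by
  obtain ⟨R', h1, h2⟩ := P366Y.NeckH.far hn (R := R) (by linarith [R0_ge M]) hb
  refine ⟨R', h1, fun v β hv h hA hβ x hx => ?_⟩
  have := h2 _ β (hv.xfj Mfe.o 0) (C.HiH.ext hR (p := fun s t _ => 0 ≤ s ∧ t = 0) h)
    (asyE_xfj.1 (hA.asyE _)) hβ (px x) hx
  rwa [C.HiH.back x (by linarith)] at this

theorem quot_bd {a u : M → ℝ} (ha : Smooth a) (hu : Smooth u) (h0 : 1 / 2 ≤ u x) {A B C : ℝ}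
    (h1 : |a x| ≤ A) (h2 : ‖fd a x‖ ≤ B) (h3 : ‖fd u x‖ ≤ C) :
    ‖fd (fun y => a y / u y) x‖ ≤ 2 * B + 4 * A * C :=
  P366Y.NeckH.quot_bd (ha _ (ch_mem x)) (hu _ (ch_mem x)) (by rwa [loc_pt]) (by rwa [loc_pt]) h2 h3

end NeckH

end Vale.Agent.P366M.Y
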