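import Vale.Agent.P366Q.Neck
import Vale.Agent.P366Q.G.Rps

/-!
# P366Q: the inequality from the prepared data, the analysis and the flow
-/

open Set
open Vale.Agent.P366 Vale.Agent.P366.Stmt Vale.Agent.P366Z

namespace Vale.Agent.P366M.Y

theorem pen_of (hF : G.FLOW) {n : ℕ} {M : Type} [Mfe n M] {D : Exterior n M} {m : ℝ} (hn : 3 ≤ n)
    (h0 : ∀ η > (0 : ℝ), ∃ ρ : ℝ, ∀ δ > (0 : ℝ), ∃ X : Dat n M, X.Ok ∧ X.ρ = ρ ∧ X.Of D m η δ)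
    (h1 : ∀ X : Dat n M, X.Ok → ∀ η ∈ Ioc (0 : ℝ) (1 / 16), ∃ σ₀ > (0 : ℝ), ∀ ℓ : ℝ,
      ∃ w f u φ₀ F₀ β, Sol X σ₀ η ℓ w f u φ₀ F₀ β) :
    D.Amin ≠ ⊤ ∧ (D.Amin.toReal / Stmt.omega n) ^ (((n : ℝ) - 2) / (n - 1)) / 2 ≤ m :=
  G.rps_of_flow hF n M D m hn (neck_of hn h0 h1)

end Vale.Agent.P366M.Y
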