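import Vale.Agent.P366Q.Full
import Vale.Agent.P366Q.G.All
import Vale.Agent.P366Q.O.Mb2
import Vale.Agent.P366Q.O.Mbc
import Vale.Agent.P366Q.S.Massr
import Vale.Agent.P366Q.S.All
import Vale.Agent.P366P.Cape
import Vale.Agent.P366L.Crg
import Vale.Agent.P366C.All
import Vale.Agent.P366C.Flt
import Vale.Agent.P366D.All
import Vale.Agent.P366D.Loha
import Vale.Agent.P366D.Lbar
import Vale.Agent.P366E.Bdc
import Vale.Agent.P366N.Fin3

/-!
# P366Q: the final statement
-/

namespace Vale.Agent.P366M.Top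

theorem pmti : P366D.PMTI :=
  P366D.pmti (An.ana_flt P366C.flt) (An.ana1_flt P366C.flt) (P366D.lbar_of subs) P366D.loha

theorem mb : G.MB := G.mb_of (G.cape_of An.capx) P366L.crg G.mbc

theorem full : FULL := Y.full_rps (G.rps_all mb G.bdc (G.massr_of pmti) (G.stab2 pmti))

theorem final : P366N.FINAL3 := P366N.final3_of full

end Vale.Agent.P366M.Top
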